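import Vale.Agent.P223.H791.Hess

/-! Algebra of the real matrix of a Hermitian matrix. -/

open scoped Matrix ContDiff ComplexOrder Topology
open Filter

namespace Vale.Agent.P223.H791

open Vale.Agent.P223.H959

theorem realM_eq {m : ℕ} (H : Matrix (Fin m) (Fin m) ℂ) :
    realM H = blk ((2 : ℝ) • H.map Complex.re) ((2 : ℝ) • H.map Complex.im)
      ((2 : ℝ) • -H.map Complex.im) ((2 : ℝ) • H.map Complex.re) := by
  rw [realM, blk_smul]

theorem stdJ_sq (m : ℕ) : stdJ m * stdJ m = -1 := by
  unfold stdJ
  rw [blk_mul]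
  have h : (-1 : Matrix (Fin (m + m)) (Fin (m + m)) ℝ) = blk (-1) 0 0 (-1) := by
    rw [eq_blk (-1 : Matrix (Fin (m + m)) (Fin (m + m)) ℝ)]
    congr 1
    · ext i j
      simp only [Matrix.of_apply, Matrix.neg_apply, Matrix.one_apply, Fin.castAdd_inj]
    · ext i j
      have h1 : (Fin.castAdd m i : Fin (m + m)) ≠ Fin.natAdd m j := by
        intro h
        have := congrArg Fin.val h
        simp at this
        omega
      simp only [Matrix.of_apply, Matrix.neg_apply, Matrix.one_apply, if_neg h1, neg_zero,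
        Matrix.zero_apply]
    · ext i j
      have h1 : (Fin.natAdd m i : Fin (m + m)) ≠ Fin.castAdd m j := by
        intro h
        have := congrArg Fin.val h
        simp at this
        omega
      simp only [Matrix.of_apply, Matrix.neg_apply, Matrix.one_apply, if_neg h1, neg_zero,
        Matrix.zero_apply]
    · ext i j
      simp only [Matrix.of_apply, Matrix.neg_apply, Matrix.one_apply, Fin.natAdd_inj]
  rw [h]
  simp

theorem realM_add {m : ℕ} (A B : Matrix (Fin m) (Fin m) ℂ) :
    realM (A + B) = realM A + realM B := by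
  rw [realM_eq, realM_eq, realM_eq, blk_add]
  congr 1 <;>
  · ext i j
    simp only [Matrix.smul_apply, Matrix.neg_apply, Matrix.map_apply, Matrix.add_apply,
      Complex.add_re, Complex.add_im, smul_eq_mul]
    ring

theorem realM_smul {m : ℕ} (r : ℝ) (A : Matrix (Fin m) (Fin m) ℂ) :
    realM ((r : ℂ) • A) = r • realM A := by
  rw [realM_eq, realM_eq, blk_smul]
  congr 1 <;>
  · ext i j
    simp only [Matrix.smul_apply, Matrix.neg_apply, Matrix.map_apply, smul_eq_mul,
      Complex.re_ofReal_mul, Complex.im_ofReal_mul]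
    ring

theorem realM_inv {m : ℕ} (A : Matrix (Fin m) (Fin m) ℂ) :
    (stdJ m)ᵀ * realM A * stdJ m = realM A := by
  rw [realM_eq, conj_blk]
  congr 1 <;>
  · ext i j
    simp only [Matrix.smul_apply, Matrix.neg_apply, Matrix.map_apply, smul_eq_mul]
    ring

theorem quad {m : ℕ} (A : Matrix (Fin m) (Fin m) ℂ) (x : Fin (m + m) → ℝ) :
    star x ⬝ᵥ (realM A *ᵥ x) =
      2 * (star (fun j => (⟨x (Fin.castAdd m j), -x (Fin.natAdd m j)⟩ : ℂ)) ⬝ᵥ
        (A *ᵥ fun j => (⟨x (Fin.castAdd m j), -x (Fin.natAdd m j)⟩ : ℂ))).re := by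
  rw [realM_eq]
  simp only [dotProduct, Matrix.mulVec, Fin.sum_univ_add, blk11, blk12, blk21, blk22,
    Pi.star_apply, star_trivial, Matrix.smul_apply, Matrix.neg_apply, Matrix.map_apply, smul_eq_mul,
    Complex.re_sum, ← Finset.sum_add_distrib, Finset.mul_sum]
  refine Finset.sum_congr rfl fun i _ => ?_
  refine Finset.sum_congr rfl fun j _ => ?_
  simp [Complex.mul_re, Complex.mul_im]
  ring

theorem herm {m : ℕ} {A : Matrix (Fin m) (Fin m) ℂ} (hA : A.IsHermitian) :
    (realM A).IsHermitian := by
  have h1 : ∀ i j, (A j i).re = (A i j).re ∧ (A j i).im = -(A i j).im := by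
    intro i j
    have := hA.apply i j
    rw [← this]
    simp
  rw [Matrix.IsHermitian, Matrix.conjTranspose_eq_transpose_of_trivial, realM_eq, blk_transpose]
  congr 1 <;>
  · ext i j
    simp only [Matrix.transpose_apply, Matrix.smul_apply, Matrix.neg_apply, Matrix.map_apply,
      smul_eq_mul, (h1 i j).1, (h1 i j).2]
    try ring

theorem realM_posSemidef {m : ℕ} {A : Matrix (Fin m) (Fin m) ℂ} (hA : A.PosSemidef) :
    (realM A).PosSemidef := by
  refine .of_dotProduct_mulVec_nonneg (herm hA.1) fun x => ?_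
  rw [quad]
  have := hA.re_dotProduct_nonneg (fun j => (⟨x (Fin.castAdd m j), -x (Fin.natAdd m j)⟩ : ℂ))
  simpa using this

theorem realM_posDef {m : ℕ} {A : Matrix (Fin m) (Fin m) ℂ} (hA : A.PosDef) :
    (realM A).PosDef := by
  refine .of_dotProduct_mulVec_pos (herm hA.1) fun x hx => ?_
  rw [quad]
  have h1 : (fun j => (⟨x (Fin.castAdd m j), -x (Fin.natAdd m j)⟩ : ℂ)) ≠ 0 := by
    intro h
    refine hx (funext fun a => ?_)
    refine Fin.addCases (fun i => ?_) (fun i => ?_) a
    · exact congrArg Complex.re (congrFun h i)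
    · have := congrArg Complex.im (congrFun h i)
      simpa using this
  have := hA.re_dotProduct_pos h1
  simpa using this

theorem det_blk {m : ℕ} (A : Matrix (Fin m) (Fin m) ℂ) :
    (((blk (A.map Complex.re) (A.map Complex.im) (-A.map Complex.im) (A.map Complex.re)).det : ℝ) : ℂ)
      = (starRingEnd ℂ) A.det * A.det := by
  set R : Matrix (Fin m) (Fin m) ℂ := A.map fun z => ((z.re : ℝ) : ℂ) with hR
  set I : Matrix (Fin m) (Fin m) ℂ := A.map fun z => ((z.im : ℝ) : ℂ) with hI
  have hA : R + Complex.I • I = A := by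
    ext i j
    simp only [hR, hI, Matrix.add_apply, Matrix.smul_apply, Matrix.map_apply, smul_eq_mul]
    rw [mul_comm]
    exact Complex.re_add_im _
  have hA' : R - Complex.I • I = A.map (starRingEnd ℂ) := by
    ext i j
    simp only [hR, hI, Matrix.sub_apply, Matrix.smul_apply, Matrix.map_apply, smul_eq_mul]
    apply Complex.ext <;> simp
  have h1 : (((blk (A.map Complex.re) (A.map Complex.im) (-A.map Complex.im)
      (A.map Complex.re)).det : ℝ) : ℂ) = (Matrix.fromBlocks R I (-I) R).det := by
    rw [blk, Matrix.det_submatrix_equiv_self]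
    rw [← Complex.ofRealHom_eq_coe, RingHom.map_det, RingHom.mapMatrix_apply]
    congr 1
    rw [Matrix.fromBlocks_map]
    congr 1
    ext i j
    simp [hI]
  have h2 : Matrix.fromBlocks (1 : Matrix (Fin m) (Fin m) ℂ) (Complex.I • 1) 0 1 *
      Matrix.fromBlocks R I (-I) R * Matrix.fromBlocks 1 (-(Complex.I • 1)) 0 1
      = Matrix.fromBlocks (A.map (starRingEnd ℂ)) 0 (-I) A := by
    rw [Matrix.fromBlocks_multiply, Matrix.fromBlocks_multiply, ← hA']
    conv_rhs => rw [← hA]
    congr 1
    · simp [sub_eq_add_neg]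
    · ext i j
      simp
      ring_nf
      rw [Complex.I_sq]
      ring
    · simp
    · ext i j
      simp
      ring
  have h3 := congrArg Matrix.det h2
  rw [Matrix.det_mul, Matrix.det_mul, Matrix.det_fromBlocks_zero₂₁, Matrix.det_fromBlocks_zero₂₁,
    Matrix.det_fromBlocks_zero₁₂] at h3
  simp only [Matrix.det_one, one_mul, mul_one] at h3
  rw [h1, h3, RingHom.map_det, RingHom.mapMatrix_apply]

theorem realM_det {m : ℕ} {A : Matrix (Fin m) (Fin m) ℂ} (hA : A.PosDef) :
    (realM A).det = (2 ^ m * A.det.re) ^ 2 := by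
  have h1 : (0 : ℂ) < A.det := hA.det_pos
  have h2 : A.det = ((A.det.re : ℝ) : ℂ) := by
    apply Complex.ext
    · simp
    · have := (Complex.lt_def.1 h1).2
      simpa using this.symm
  have h3 := det_blk A
  rw [h2, Complex.conj_ofReal, ← Complex.ofReal_mul] at h3
  have h4 := Complex.ofReal_injective h3
  rw [realM, Matrix.det_smul, h4, Fintype.card_fin]
  ring

theorem specAlg : SpecAlg where
  sqr := stdJ_sq
  add := fun _ A B => realM_add A B
  smul := fun _ r A => realM_smul r A
  inv := fun _ A => realM_inv A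
  posDef := fun _ _ h => realM_posDef h
  posSemidef := fun _ _ h => realM_posSemidef h
  det := fun _ _ h => realM_det h

end Vale.Agent.P223.H791
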