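import Vale.Agent.P223.H959.Spec

/-! The complex Hessian in real coordinates. -/

open scoped Matrix ContDiff ComplexOrder Topology
open Filter

namespace Vale.Agent.P223.H791

open Vale.Agent.P272.K (Cm cHess dz dzb)
open Vale.Agent.P223.H959

/-! ### block matrices -/

theorem blk11 {m : ℕ} (A B C D : Matrix (Fin m) (Fin m) ℝ) (i j : Fin m) :
    blk A B C D (Fin.castAdd m i) (Fin.castAdd m j) = A i j := by
  rw [blk, Matrix.submatrix_apply, finSumFinEquiv_symm_apply_castAdd,
    finSumFinEquiv_symm_apply_castAdd]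
  rfl

theorem blk12 {m : ℕ} (A B C D : Matrix (Fin m) (Fin m) ℝ) (i j : Fin m) :
    blk A B C D (Fin.castAdd m i) (Fin.natAdd m j) = B i j := by
  rw [blk, Matrix.submatrix_apply, finSumFinEquiv_symm_apply_castAdd,
    finSumFinEquiv_symm_apply_natAdd]
  rfl

theorem blk21 {m : ℕ} (A B C D : Matrix (Fin m) (Fin m) ℝ) (i j : Fin m) :
    blk A B C D (Fin.natAdd m i) (Fin.castAdd m j) = C i j := by
  rw [blk, Matrix.submatrix_apply, finSumFinEquiv_symm_apply_castAdd,
    finSumFinEquiv_symm_apply_natAdd]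
  rfl

theorem blk22 {m : ℕ} (A B C D : Matrix (Fin m) (Fin m) ℝ) (i j : Fin m) :
    blk A B C D (Fin.natAdd m i) (Fin.natAdd m j) = D i j := by
  rw [blk, Matrix.submatrix_apply, finSumFinEquiv_symm_apply_natAdd,
    finSumFinEquiv_symm_apply_natAdd]
  rfl

theorem blk_mul {m : ℕ} (A B C D A' B' C' D' : Matrix (Fin m) (Fin m) ℝ) :
    blk A B C D * blk A' B' C' D' =
      blk (A * A' + B * C') (A * B' + B * D') (C * A' + D * C') (C * B' + D * D') := by
  simp only [blk]
  rw [Matrix.submatrix_mul_equiv, Matrix.fromBlocks_multiply]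

theorem blk_add {m : ℕ} (A B C D A' B' C' D' : Matrix (Fin m) (Fin m) ℝ) :
    blk A B C D + blk A' B' C' D' = blk (A + A') (B + B') (C + C') (D + D') := by
  ext a b
  simp only [blk, Matrix.add_apply, Matrix.submatrix_apply]
  rw [← Matrix.add_apply, Matrix.fromBlocks_add]

theorem blk_smul {m : ℕ} (r : ℝ) (A B C D : Matrix (Fin m) (Fin m) ℝ) :
    r • blk A B C D = blk (r • A) (r • B) (r • C) (r • D) := by
  ext a b
  simp only [blk, Matrix.smul_apply, Matrix.submatrix_apply]
  rw [← Matrix.smul_apply, Matrix.fromBlocks_smul]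

theorem blk_transpose {m : ℕ} (A B C D : Matrix (Fin m) (Fin m) ℝ) :
    (blk A B C D)ᵀ = blk Aᵀ Cᵀ Bᵀ Dᵀ := by
  simp only [blk]
  rw [Matrix.transpose_submatrix, Matrix.fromBlocks_transpose]

theorem eq_blk {m : ℕ} (M : Matrix (Fin (m + m)) (Fin (m + m)) ℝ) :
    M = blk (Matrix.of fun i j => M (Fin.castAdd m i) (Fin.castAdd m j))
      (Matrix.of fun i j => M (Fin.castAdd m i) (Fin.natAdd m j))
      (Matrix.of fun i j => M (Fin.natAdd m i) (Fin.castAdd m j))
      (Matrix.of fun i j => M (Fin.natAdd m i) (Fin.natAdd m j)) := by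
  ext a b
  refine Fin.addCases (fun i => ?_) (fun i => ?_) a <;>
    refine Fin.addCases (fun j => ?_) (fun j => ?_) b
  · rw [blk11]; rfl
  · rw [blk12]; rfl
  · rw [blk21]; rfl
  · rw [blk22]; rfl

theorem conj_blk {m : ℕ} (A B C D : Matrix (Fin m) (Fin m) ℝ) :
    (stdJ m)ᵀ * blk A B C D * stdJ m = blk D (-C) (-B) A := by
  unfold stdJ
  rw [blk_transpose, blk_mul, blk_mul]
  simp

/-! ### derivatives -/

theorem toReal_symm_left {m : ℕ} (j : Fin m) :
    (toReal m).symm (Pi.single (Fin.castAdd m j) 1) = Pi.single j 1 := by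
  rw [ContinuousLinearEquiv.symm_apply_eq]
  ext a
  refine Fin.addCases (fun i => ?_) (fun i => ?_) a
  · rw [toReal_left, Pi.single_apply, Pi.single_apply]
    by_cases h : i = j
    · simp [h]
    · rw [if_neg h, if_neg (fun h' => h (by simpa using h'))]; rfl
  · rw [toReal_right, Pi.single_apply, Pi.single_apply]
    have h1 : (Fin.natAdd m i : Fin (m + m)) ≠ Fin.castAdd m j := by
      intro h
      have := congrArg Fin.val h
      simp at this
      omega
    rw [if_neg h1]
    split_ifs <;> simp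

theorem toReal_symm_right {m : ℕ} (j : Fin m) :
    (toReal m).symm (Pi.single (Fin.natAdd m j) 1) = Pi.single j Complex.I := by
  rw [ContinuousLinearEquiv.symm_apply_eq]
  ext a
  refine Fin.addCases (fun i => ?_) (fun i => ?_) a
  · rw [toReal_left, Pi.single_apply, Pi.single_apply]
    have h1 : (Fin.castAdd m i : Fin (m + m)) ≠ Fin.natAdd m j := by
      intro h
      have := congrArg Fin.val h
      simp at this
      omega
    rw [if_neg h1]
    split_ifs <;> simp
  · rw [toReal_right, Pi.single_apply, Pi.single_apply]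
    by_cases h : i = j
    · simp [h]
    · rw [if_neg h, if_neg (fun h' => h (by simpa using h'))]; rfl

/-- second derivative -/
noncomputable def Q2 {m : ℕ} (f : Cm m → ℝ) (z : Cm m) (u v : Cm m) : ℝ :=
  fderiv ℝ (fun y => fderiv ℝ f y v) z u

theorem pd_toReal {m : ℕ} (f : Cm m → ℝ) (y : Fin (m + m) → ℝ) (b : Fin (m + m)) :
    pd b (fun z => f ((toReal m).symm z)) y
      = fderiv ℝ f ((toReal m).symm y) ((toReal m).symm (Pi.single b 1)) := by
  have h := (toReal m).symm.comp_right_fderiv (f := f) (x := y)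
  have h2 : (fun z => f ((toReal m).symm z)) = f ∘ (toReal m).symm := rfl
  unfold pd
  rw [h2, h]
  rfl

theorem pd_pd_toReal {m : ℕ} (f : Cm m → ℝ) (x : Fin (m + m) → ℝ) (a b : Fin (m + m)) :
    pd a (fun y => pd b (fun z => f ((toReal m).symm z)) y) x
      = Q2 f ((toReal m).symm x) ((toReal m).symm (Pi.single a 1))
        ((toReal m).symm (Pi.single b 1)) := by
  simp_rw [pd_toReal]
  exact pd_toReal (fun z => fderiv ℝ f z ((toReal m).symm (Pi.single b 1))) x a

theorem cHess_eq {m : ℕ} {f : Cm m → ℝ} {z : Cm m} (hf : ContDiffAt ℝ ∞ f z) (j k : Fin m) :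
    4 * cHess f z j k =
      ((Q2 f z (Pi.single j 1) (Pi.single k 1) + Q2 f z (Pi.single j Complex.I)
          (Pi.single k Complex.I) : ℝ) : ℂ) +
        ((Q2 f z (Pi.single j 1) (Pi.single k Complex.I) - Q2 f z (Pi.single j Complex.I)
          (Pi.single k 1) : ℝ) : ℂ) * Complex.I := by
  have h1 : ∀ᶠ y in 𝓝 z, DifferentiableAt ℝ f y := by
    have : ContDiffAt ℝ 1 f z := hf.of_le (by exact_mod_cast le_top)
    exact (this.eventually (by simp)).mono fun y hy => hy.differentiableAt (by simp)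
  have h2 : (fun y => dzb k (fun y => (f y : ℂ)) y) =ᶠ[𝓝 z] fun y =>
      (((fderiv ℝ f y (Pi.single k 1) : ℝ) : ℂ) + Complex.I *
        ((fderiv ℝ f y (Pi.single k Complex.I) : ℝ) : ℂ)) / 2 := by
    filter_upwards [h1] with y hy
    have h3 : HasFDerivAt (fun y => (f y : ℂ)) (Complex.ofRealCLM.comp (fderiv ℝ f y)) y :=
      Complex.ofRealCLM.hasFDerivAt.comp y hy.hasFDerivAt
    unfold dzb
    rw [h3.fderiv]
    rfl
  have hd : ∀ v : Cm m, DifferentiableAt ℝ (fun y => fderiv ℝ f y v) z := by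
    intro v
    have h3 : ContDiffAt ℝ ∞ (fderiv ℝ f) z := hf.fderiv_right (by simp)
    exact (h3.differentiableAt (by simp)).clm_apply (differentiableAt_const _)
  have h4 : ∀ v : Cm m, fderiv ℝ (fun y => dzb k (fun y => (f y : ℂ)) y) z v =
      (((Q2 f z v (Pi.single k 1) : ℝ) : ℂ) + Complex.I *
        ((Q2 f z v (Pi.single k Complex.I) : ℝ) : ℂ)) / 2 := by
    intro v
    rw [h2.fderiv_eq]
    have a1 : HasFDerivAt (fun y => ((fderiv ℝ f y (Pi.single k 1) : ℝ) : ℂ))
        (Complex.ofRealCLM.comp (fderiv ℝ (fun y => fderiv ℝ f y (Pi.single k 1)) z)) z :=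
      Complex.ofRealCLM.hasFDerivAt.comp z (hd _).hasFDerivAt
    have a2 : HasFDerivAt (fun y => ((fderiv ℝ f y (Pi.single k Complex.I) : ℝ) : ℂ))
        (Complex.ofRealCLM.comp (fderiv ℝ (fun y => fderiv ℝ f y (Pi.single k Complex.I)) z)) z :=
      Complex.ofRealCLM.hasFDerivAt.comp z (hd _).hasFDerivAt
    have a3 := (a1.add (a2.const_mul Complex.I)).mul_const (2⁻¹ : ℂ)
    have a4 : (fun y => (((fderiv ℝ f y (Pi.single k 1) : ℝ) : ℂ) + Complex.I *
        ((fderiv ℝ f y (Pi.single k Complex.I) : ℝ) : ℂ)) / 2) =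
        fun y => (((fderiv ℝ f y (Pi.single k 1) : ℝ) : ℂ) + Complex.I *
        ((fderiv ℝ f y (Pi.single k Complex.I) : ℝ) : ℂ)) * (2⁻¹ : ℂ) := by
      ext y; rw [div_eq_mul_inv]
    rw [a4]
    erw [a3.fderiv]
    simp [Q2]
    ring
  unfold cHess dz
  rw [Matrix.of_apply, h4, h4]
  push_cast
  ring_nf
  rw [Complex.I_sq]
  ring

theorem specHess : SpecHess := by
  intro m f x hf
  set z := (toReal m).symm x with hz
  set M : Matrix (Fin (m + m)) (Fin (m + m)) ℝ :=
    Matrix.of (fun a b => pd a (fun y => pd b (fun z => f ((toReal m).symm z)) y) x) with hM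
  have hMab : ∀ a b, M a b = Q2 f z ((toReal m).symm (Pi.single a 1))
      ((toReal m).symm (Pi.single b 1)) := fun a b => pd_pd_toReal f x a b
  have h1 := eq_blk M
  have hre : ∀ j k, 4 * (cHess f z j k).re = Q2 f z (Pi.single j 1) (Pi.single k 1) +
      Q2 f z (Pi.single j Complex.I) (Pi.single k Complex.I) := by
    intro j k
    have := congrArg Complex.re (cHess_eq hf j k)
    simpa using this
  have him : ∀ j k, 4 * (cHess f z j k).im = Q2 f z (Pi.single j 1) (Pi.single k Complex.I) -
      Q2 f z (Pi.single j Complex.I) (Pi.single k 1) := by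
    intro j k
    have := congrArg Complex.im (cHess_eq hf j k)
    simpa using this
  rw [h1, conj_blk, blk_add, realM, smul_smul, blk_smul]
  congr 1
  · ext j k
    simp only [Matrix.smul_apply, Matrix.map_apply, smul_eq_mul, Matrix.add_apply, Matrix.of_apply,
      hMab, toReal_symm_left, toReal_symm_right]
    linarith [hre j k]
  · ext j k
    simp only [Matrix.smul_apply, Matrix.map_apply, smul_eq_mul, Matrix.add_apply, Matrix.of_apply,
      Matrix.neg_apply, hMab, toReal_symm_left, toReal_symm_right]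
    linarith [him j k]
  · ext j k
    simp only [Matrix.smul_apply, Matrix.map_apply, smul_eq_mul, Matrix.add_apply, Matrix.of_apply,
      Matrix.neg_apply, hMab, toReal_symm_left, toReal_symm_right]
    linarith [him j k]
  · ext j k
    simp only [Matrix.smul_apply, Matrix.map_apply, smul_eq_mul, Matrix.add_apply, Matrix.of_apply,
      hMab, toReal_symm_left, toReal_symm_right]
    linarith [hre j k]

end Vale.Agent.P223.H791
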